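import Vale.Agent.P092.H859.CLK
import Vale.Agent.P092.H76.DichoC

/-!
P092, TEAM D, (T2) of #5548 (helper107): transport of the analytic inputs of the wall limit engine
along a homomorphism `θ` of the source group, and exchange of the two gaps.
-/

set_option linter.all false

namespace Vale.Agent.P092.H107.Cp

open Filter Topology ContinuousLinearMap
open scoped InnerProductSpace
open Vale.Agent.P092.H859.CL

section swap

variable {Γ D K Y : Type} [Group Γ] [Group D] [NormedAddCommGroup K] [InnerProductSpace ℂ K]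
  [CompleteSpace K] {m : Set Γ → (K →L[ℂ] K)} {mp : (Γ → ℝ) → (K →L[ℂ] K)}
  {R : D → (K →L[ℂ] K)} {Bd : Set K} {ms : D → Set Γ → ℝ} {A : Subgroup D} {G1 G2 : Γ → ℝ}

theorem BB_swap (G1 G2 : Γ → ℝ) (r : ℝ) : BB G2 G1 r = BB G1 G2 r := by
  ext g
  exact and_comm

theorem FF_swap (G1 G2 : Γ → ℝ) (r : ℝ) : FF G2 G1 r = FF G1 G2 r := by
  ext g
  exact and_comm

theorem neg_swap {F : Γ → ℂ} (h : Neg G1 G2 F) : Neg G2 G1 F := by
  intro ε hε r
  obtain ⟨T, hT⟩ := h ε hε r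
  refine ⟨T, fun g hg => ?_⟩
  rw [FF_swap, BB_swap]
  exact hT g hg

/-- The two gaps play the same role in `Sys`. -/
theorem sys_swap (h : Sys m R Bd ms A G1 G2) : Sys m R Bd ms A G2 G1 where
  prj := h.prj
  rep := h.rep
  dense := h.dense
  norm := h.norm
  map := h.map
  sep := h.sep
  nrm := fun ε hε => by
    obtain ⟨r, hr⟩ := h.nrm ε hε
    exact ⟨r, fun u hu => by rw [BB_swap]; exact hr u hu⟩
  nrv := fun ξ hξ ε hε => by
    obtain ⟨r, hr⟩ := h.nrv ξ hξ ε hε
    exact ⟨r, fun u hu => by rw [BB_swap]; exact hr u hu⟩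

theorem sysF_swap (h : SysF mp R Bd ms A G1 G2) : SysF mp R Bd ms A G2 G1 :=
  ⟨h.fn, sys_swap h.sys, h.mpb⟩

theorem lu_swap {l : Filter D} (h : H76.Dicho.LU mp R G1 G2 l) : H76.Dicho.LU mp R G2 G1 l := by
  intro F C hF hN
  exact h F C hF fun u => neg_swap (hN u)

end swap

section comp

variable {Γ D D' K Y : Type} [Group Γ] [Group D] [Group D'] [NormedAddCommGroup K]
  [InnerProductSpace ℂ K] [CompleteSpace K] {m : Set Γ → (K →L[ℂ] K)}
  {mp : (Γ → ℝ) → (K →L[ℂ] K)} {R : D → (K →L[ℂ] K)} {Bd : Set K} {ms : D → Set Γ → ℝ}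
  {A : Subgroup D} {G1 G2 : Γ → ℝ} {l : Filter D} {l' : Filter D'}

theorem rep_comp (h : Rep R) (θ : D' →* D) : Rep fun d => R (θ d) where
  mul v w := by
    simp only [map_mul]
    exact h.mul _ _
  adj v := by
    simp only [map_inv]
    exact h.adj _

theorem sys_comp (h : Sys m R Bd ms A G1 G2) (θ : D' →* D) :
    Sys m (fun d => R (θ d)) Bd (fun d => ms (θ d)) (A.comap θ) G1 G2 where
  prj := h.prj
  rep := rep_comp h.rep θ
  dense := h.dense
  norm := h.norm
  map v := h.map (θ v)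
  sep u := h.sep (θ u)
  nrm := fun ε hε => by
    obtain ⟨r, hr⟩ := h.nrm ε hε
    exact ⟨r, fun u hu => hr (θ u) hu⟩
  nrv := fun ξ hξ ε hε => by
    obtain ⟨r, hr⟩ := h.nrv ξ hξ ε hε
    exact ⟨r, fun u hu => hr (θ u) hu⟩

theorem sysF_comp (h : SysF mp R Bd ms A G1 G2) (θ : D' →* D) :
    SysF mp (fun d => R (θ d)) Bd (fun d => ms (θ d)) (A.comap θ) G1 G2 :=
  ⟨h.fn, sys_comp h.sys θ, h.mpb⟩

theorem esc_comp (h : Esc m R Bd A l) {θ : D' →* D} (hθ : Tendsto θ l' l) :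
    Esc m (fun d => R (θ d)) Bd (A.comap θ) l' where
  mem := hθ.eventually h.mem
  esc g ξ hξ := (h.esc g ξ hξ).comp hθ

theorem full_comp (h : Full m R G1 G2 l) {θ : D' →* D} (hθ : Tendsto θ l' l) :
    Full m (fun d => R (θ d)) G1 G2 l' := by
  intro ξ
  have h1 := (h ξ).comp hθ
  have e : (fun w => P m R w {g | G2 g ≤ G1 g} ξ) ∘ θ =
      fun w => P m (fun d => R (θ d)) w {g | G2 g ≤ G1 g} ξ := by
    funext w
    simp only [Function.comp, P_ap, map_inv]
  rw [e] at h1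
  simp only [map_one]
  exact h1

theorem slow_comp [TopologicalSpace D] [TopologicalSpace D'] (h : Slow mp R Bd) {θ : D' →* D}
    (hθ : Continuous θ) : Slow mp (fun d => R (θ d)) Bd := by
  intro ε hε
  have h1 := h ε hε
  have h2 : Tendsto θ (𝓝 (1 : D')) (𝓝 (1 : D)) := by
    have := hθ.tendsto 1
    rwa [map_one] at this
  exact h2.eventually h1

theorem sym_comp {Ω : K} (h : Sym mp R Ω) (θ : D' →* D) : Sym mp (fun d => R (θ d)) Ω := by
  intro u P
  have := h (θ u) P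
  simp only [map_inv]
  exact this

theorem lu_comp (h : H76.Dicho.LU mp R G1 G2 l) {θ : D' →* D} (hθ : Tendsto θ l' l) :
    H76.Dicho.LU mp (fun d => R (θ d)) G1 G2 l' := by
  intro F C hF hN v ξ η
  exact (h F C hF hN (θ v) ξ η).comp hθ

theorem leg_comp {lam : Γ → (K →L[ℂ] K)} {W : Set (K →L[ℂ] K)} (h : Leg mp R lam W)
    (θ : D' →* D) : Leg mp (fun d => R (θ d)) lam W where
  one := by simp only [map_one]; exact h.one
  lmul := h.lmul
  lone := h.lone
  comm g := h.comm (θ g)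
  cov := h.cov
  WP w hw g := by
    simp only [map_inv]
    exact h.WP w hw (θ g)
  Wm := h.Wm

theorem PC_comp (θ : D' →* D) (w : D') (F : Γ → ℂ) :
    PC mp (fun d => R (θ d)) w F = PC mp R (θ w) F := by
  unfold PC
  simp only [map_inv]

theorem isLim_comp [TopologicalSpace Y] {bp : Γ → Y} {β : C(Y, ℂ) →⋆ₐ[ℂ] (K →L[ℂ] K)}
    (h : IsLim mp R G1 G2 bp l β) {θ : D' →* D} (hθ : Tendsto θ l' l) :
    IsLim mp (fun d => R (θ d)) G1 G2 bp l' β := by
  intro f ξ
  have h1 := (h f ξ).comp hθ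
  refine h1.congr fun w => ?_
  simp only [Function.comp, PC_comp]

end comp

end Vale.Agent.P092.H107.Cp
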