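import Vale.Agent.P092.H944.Gap
import Vale.Agent.P092.SD.Defs

/-!
P092, TEAM D, block [0] for the lines (helper107): the inverse transpose `tau` exchanges the two
gaps of the singular values, and preserves the finiteness of the balls.
-/

namespace Vale.Agent.P092.H107

open Matrix Vale.Agent.P092.H944
open Vale.Agent.P092.SD (G3 PP tau pt ept nm NW Att act CP)

section gen

variable {n : ℕ}

/-- The singular values are unique. -/
theorem sv_unique {g k1 k2 k1' k2' : Matrix (Fin n) (Fin n) ℝ} {a a' : Fin n → ℝ}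
    (h : IsSVD g k1 a k2) (h' : IsSVD g k1' a' k2') : a = a' := by
  have key : ∀ {k1 k2 : Matrix (Fin n) (Fin n) ℝ} {a : Fin n → ℝ}, IsSVD g k1 a k2 →
      (g * gᵀ).charpoly.roots = Finset.univ.val.map fun i => a i * a i := by
    intro k1 k2 a h
    have e : g * gᵀ = k1 * (diagonal fun i => a i * a i) * k1ᵀ := by
      rw [h.eq, transpose_mul, transpose_mul, diagonal_transpose]
      calc k1 * diagonal a * k2 * (k2ᵀ * (diagonal a * k1ᵀ))
          = k1 * (diagonal a * (k2 * k2ᵀ) * diagonal a) * k1ᵀ := by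
            simp only [Matrix.mul_assoc]
        _ = k1 * (diagonal a * diagonal a) * k1ᵀ := by rw [h.o2', Matrix.mul_one]
        _ = _ := by rw [diagonal_mul_diagonal]
    rw [e, Matrix.mul_assoc, charpoly_mul_comm, Matrix.mul_assoc, h.o1, Matrix.mul_one,
      charpoly_diagonal, Finset.prod_eq_multiset_prod,
      show (Finset.univ.val.map fun i : Fin n => Polynomial.X - Polynomial.C (a i * a i)) =
        (Finset.univ.val.map fun i => a i * a i).map fun x => Polynomial.X - Polynomial.C x by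
        rw [Multiset.map_map]; rfl, Polynomial.roots_multiset_prod_X_sub_C]
  have e1 := (key h).symm.trans (key h')
  rw [Fin.univ_val_map, Fin.univ_val_map, Multiset.coe_eq_coe] at e1
  have anti : ∀ {a : Fin n → ℝ}, (∀ i, 0 < a i) → Antitone a → Antitone fun i => a i * a i :=
    fun hp ha i j hij => mul_le_mul (ha hij) (ha hij) (hp j).le (hp i).le
  have e2 : (fun i => a i * a i) = fun i => a' i * a' i :=
    List.ofFn_injective (e1.eq_of_pairwise' (anti h.pos h.anti).sortedGE_ofFn.pairwise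
      (anti h'.pos h'.anti).sortedGE_ofFn.pairwise)
  funext i
  have e3 : a i * a i = a' i * a' i := congrFun e2 i
  exact (mul_self_inj_of_nonneg (h.pos i).le (h'.pos i).le).mp e3

/-- The singular value decomposition of the inverse transpose. -/
theorem svd_tau {g k1 k2 : Matrix (Fin n) (Fin n) ℝ} {a : Fin n → ℝ} (h : IsSVD g k1 a k2) :
    IsSVD (g⁻¹)ᵀ (k1.submatrix id Fin.rev) (fun i => (a (Fin.rev i))⁻¹)
      (k2.submatrix Fin.rev id) where
  o1 := by
    rw [transpose_submatrix]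
    have e : k1ᵀ.submatrix Fin.rev id * k1.submatrix id Fin.rev =
        (k1ᵀ * k1).submatrix Fin.rev Fin.rev := rfl
    rw [e, h.o1]
    exact submatrix_one_equiv Fin.revPerm
  o1' := by
    rw [transpose_submatrix]
    have e : k1.submatrix id Fin.rev * k1ᵀ.submatrix Fin.rev id = k1 * k1ᵀ := by
      have := submatrix_mul_equiv k1 k1ᵀ id Fin.revPerm id
      exact this
    rw [e, h.o1']
  o2 := by
    rw [transpose_submatrix]
    have e : k2ᵀ.submatrix id Fin.rev * k2.submatrix Fin.rev id = k2ᵀ * k2 := by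
      have := submatrix_mul_equiv k2ᵀ k2 id Fin.revPerm id
      exact this
    rw [e, h.o2]
  o2' := by
    rw [transpose_submatrix]
    have e : k2.submatrix Fin.rev id * k2ᵀ.submatrix id Fin.rev =
        (k2 * k2ᵀ).submatrix Fin.rev Fin.rev := rfl
    rw [e, h.o2']
    exact submatrix_one_equiv Fin.revPerm
  pos i := inv_pos.mpr (h.pos _)
  anti i j hij := inv_anti₀ (h.pos _) (h.anti (Fin.rev_le_rev.mpr hij))
  eq := by
    have e1 : g⁻¹ = k2ᵀ * diagonal (fun i => (a i)⁻¹) * k1ᵀ := by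
      apply inv_eq_right_inv
      rw [h.eq]
      calc k1 * diagonal a * k2 * (k2ᵀ * diagonal (fun i => (a i)⁻¹) * k1ᵀ)
          = k1 * (diagonal a * (k2 * k2ᵀ) * diagonal (fun i => (a i)⁻¹)) * k1ᵀ := by
            simp only [Matrix.mul_assoc]
        _ = k1 * (diagonal a * diagonal (fun i => (a i)⁻¹)) * k1ᵀ := by
            rw [h.o2', Matrix.mul_one]
        _ = 1 := by
            rw [diagonal_mul_diagonal, show (fun i => a i * (a i)⁻¹) = fun _ => (1 : ℝ) from
              funext fun i => mul_inv_cancel₀ (h.pos i).ne', diagonal_one, Matrix.mul_one, h.o1']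
    have e2 : (g⁻¹)ᵀ = k1 * diagonal (fun i => (a i)⁻¹) * k2 := by
      rw [e1, transpose_mul, transpose_mul, transpose_transpose, transpose_transpose,
        diagonal_transpose, Matrix.mul_assoc]
    have e3 : diagonal (fun i => (a (Fin.rev i))⁻¹) =
        (diagonal (fun i => (a i)⁻¹)).submatrix Fin.revPerm Fin.revPerm := by
      rw [submatrix_diagonal_equiv]
      rfl
    rw [e2, e3]
    have e4 : k1.submatrix id Fin.rev *
        (diagonal (fun i => (a i)⁻¹)).submatrix Fin.revPerm Fin.revPerm =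
        (k1 * diagonal (fun i => (a i)⁻¹)).submatrix id Fin.revPerm :=
      submatrix_mul_equiv k1 _ id Fin.revPerm Fin.revPerm
    rw [e4]
    exact (submatrix_mul_equiv (k1 * diagonal (fun i => (a i)⁻¹)) k2 id Fin.revPerm id).symm

theorem sv_tau {g : Matrix (Fin n) (Fin n) ℝ} (hg : g.det ≠ 0) (i : Fin n) :
    sv (g⁻¹)ᵀ i = (sv g (Fin.rev i))⁻¹ := by
  have h1 : ((g⁻¹)ᵀ).det ≠ 0 := by rw [det_transpose]; exact inv_det_ne hg
  exact congrFun (sv_unique (isSVD h1) (svd_tau (isSVD hg))) i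

theorem la_tau {g : Matrix (Fin n) (Fin n) ℝ} (hg : g.det ≠ 0) {j : ℕ} (hj : j < n) :
    la (g⁻¹)ᵀ j = - la g (n - 1 - j) := by
  rw [la, dif_pos hj, sv_tau hg, Real.log_inv, la, dif_pos (by omega)]
  congr 4
  simp [Fin.rev]
  omega

/-- The inverse transpose reverses the order of the gaps. -/
theorem gap_tau {g : Matrix (Fin n) (Fin n) ℝ} (hg : g.det ≠ 0) {j : ℕ} (hj : j + 1 < n) :
    gap j (g⁻¹)ᵀ = gap (n - 2 - j) g := by
  rw [gap, if_pos hj, gap, if_pos (by omega), la_tau hg (by omega), la_tau hg hj,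
    show n - 1 - (j + 1) = n - 2 - j by omega, show n - 2 - j + 1 = n - 1 - j by omega]
  ring

/-- The squared Hilbert-Schmidt norm of the inverse, for determinant `1`. -/
theorem hs_inv_le {g : Matrix (Fin 3) (Fin 3) ℝ} (hg : g.det = 1) : hs g⁻¹ ≤ 36 * hs g ^ 2 := by
  have e : g⁻¹ = g.adjugate := by rw [inv_def, hg]; simp
  have hx : ∀ i j, g i j ^ 2 ≤ hs g := fun i j => sq_entry_le g i j
  have key : ∀ i j k l i' j' k' l', (g i j * g k l - g i' j' * g k' l') ^ 2 ≤ 4 * hs g ^ 2 := by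
    intro i j k l i' j' k' l'
    have h1 : (g i j * g k l) ^ 2 ≤ hs g ^ 2 := by
      rw [mul_pow, sq (hs g)]
      exact mul_le_mul (hx i j) (hx k l) (sq_nonneg _) (hs_nonneg g)
    have h2 : (g i' j' * g k' l') ^ 2 ≤ hs g ^ 2 := by
      rw [mul_pow, sq (hs g)]
      exact mul_le_mul (hx i' j') (hx k' l') (sq_nonneg _) (hs_nonneg g)
    nlinarith [sq_nonneg (g i j * g k l + g i' j' * g k' l')]
  rw [e, adjugate_fin_three]
  unfold hs
  simp only [Fin.sum_univ_three, of_apply, cons_val_zero, cons_val_one, cons_val]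
  have k1 := key 1 1 2 2 1 2 2 1
  have k2 := key 0 2 2 1 0 1 2 2
  have k3 := key 0 1 1 2 0 2 1 1
  have k4 := key 1 2 2 0 1 0 2 2
  have k5 := key 0 0 2 2 0 2 2 0
  have k6 := key 0 2 1 0 0 0 1 2
  have k7 := key 1 0 2 1 1 1 2 0
  have k8 := key 0 1 2 0 0 0 2 1
  have k9 := key 0 0 1 1 0 1 1 0
  unfold hs at k1 k2 k3 k4 k5 k6 k7 k8 k9
  simp only [Fin.sum_univ_three] at k1 k2 k3 k4 k5 k6 k7 k8 k9
  nlinarith

end gen

section three

theorem tau_coe (h : G3 ℝ) : (tau ℝ h).1 = (h.1⁻¹)ᵀ := by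
  have e : (h⁻¹).1 = h.1⁻¹ := by
    have e1 : (h⁻¹).1 = adjugate h.1 := Matrix.SpecialLinearGroup.coe_inv h
    rw [e1, inv_def, h.2]
    simp
  exact congrArg transpose e

theorem tau_tau (h : G3 ℝ) : tau ℝ (tau ℝ h) = h := by
  apply Subtype.ext
  rw [tau_coe, tau_coe, transpose_nonsing_inv, transpose_transpose, nonsing_inv_nonsing_inv]
  rw [h.2]; exact isUnit_one

theorem tau_inj : Function.Injective (tau ℝ) := fun a b h => by
  rw [← tau_tau a, h, tau_tau]

theorem tau_surj : Function.Surjective (tau ℝ) := fun a => ⟨tau ℝ a, tau_tau a⟩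

theorem det_ne (h : G3 ℝ) : h.1.det ≠ 0 := by rw [h.2]; exact one_ne_zero

/-- The inverse transpose exchanges the gaps. -/
theorem gap0_tau (h : G3 ℝ) : gap 0 (tau ℝ h).1 = gap 1 h.1 := by
  rw [tau_coe]; exact gap_tau (det_ne h) (by norm_num)

theorem gap1_tau (h : G3 ℝ) : gap 1 (tau ℝ h).1 = gap 0 h.1 := by
  rw [tau_coe]; exact gap_tau (det_ne h) (by norm_num)

theorem hs_tau_le (h : G3 ℝ) : hs (tau ℝ h).1 ≤ 36 * hs h.1 ^ 2 := by
  rw [tau_coe, hs_transpose]; exact hs_inv_le h.2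

/-- Finite balls are preserved. -/
theorem fin_tau {Γ : Type} [Group Γ] {q : Γ →* G3 ℝ}
    (fin : ∀ R : ℝ, {g : Γ | hs (q g).1 ≤ R}.Finite) (R : ℝ) :
    {g : Γ | hs (((tau ℝ).comp q) g).1 ≤ R}.Finite := by
  refine (fin (36 * R ^ 2)).subset fun g hg => ?_
  have hg' : hs (tau ℝ (q g)).1 ≤ R := hg
  have h1 := hs_tau_le (tau ℝ (q g))
  rw [tau_tau] at h1
  have h2 := hs_nonneg (tau ℝ (q g)).1
  exact h1.trans (by nlinarith)

end three

end Vale.Agent.P092.H107
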