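import Vale.Agent.P092.H859.CLD
import Vale.Agent.P092.H337.DomG
import Vale.Agent.P092.H107.Dual

/-!
P092, TEAM D, block [D0-NWS] (helper107): uniform tails along the conjugates of the wall elements,
and the field `SD.NWS`.
-/

namespace Vale.Agent.P092.H107

open Filter Topology ContinuousLinearMap
open scoped InnerProductSpace
open Vale.Agent.P092.H944 Vale.Agent.P092.H859.CL
open Vale.Agent.P092.SD (G3 PP tau bw nm NW NWS)

section tail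

variable {Γ D K : Type} [Group Γ] [Group D] [NormedAddCommGroup K] [InnerProductSpace ℂ K]
  [CompleteSpace K] {m : Set Γ → (K →L[ℂ] K)} {R : D → (K →L[ℂ] K)} {Bd : Set K}
  {ms : D → Set Γ → ℝ} {A : Subgroup D} {G1 G2 : Γ → ℝ}

/-- If all the mass is on the cone, the mass of the complement tends to zero. -/
theorem full_compl (hm : Prj m) (hR : Rep R) {l : Filter D} (hf : Full m R G1 G2 l) (ξ : K) :
    Tendsto (fun w => ‖m {g | G1 g < G2 g} (R w ξ)‖) l (𝓝 0) := by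
  have e : {g | G1 g < G2 g} = {g | G2 g ≤ G1 g}ᶜ := by
    ext g
    simp
  have h1 : ∀ w, ‖m {g | G1 g < G2 g} (R w ξ)‖ ^ 2 =
      RCLike.re (⟪R 1 ξ - P m R w {g | G2 g ≤ G1 g} ξ, ξ⟫_ℂ) := by
    intro w
    have h2 := hm.inner_self {g | G1 g < G2 g} (R w ξ)
    have h3 : R w⁻¹ (m {g | G1 g < G2 g} (R w ξ)) = R 1 ξ - P m R w {g | G2 g ≤ G1 g} ξ := by
      rw [e, hm.compl, P_ap]
      have : R 1 ξ = R w⁻¹ (R w ξ) := by
        rw [← inv_mul_cancel w, hR.mul]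
        rfl
      rw [this, ← map_sub]
      rfl
    rw [← h3, hR.inner_left, inv_inv, h2]
    exact (Complex.ofReal_re _).symm
  have h4 : Tendsto (fun w => RCLike.re (⟪R 1 ξ - P m R w {g | G2 g ≤ G1 g} ξ, ξ⟫_ℂ)) l
      (𝓝 0) := by
    have h5 : Tendsto (fun w => ⟪R 1 ξ - P m R w {g | G2 g ≤ G1 g} ξ, ξ⟫_ℂ) l
        (𝓝 ⟪R 1 ξ - R 1 ξ, ξ⟫_ℂ) :=
      (tendsto_const_nhds.sub (hf ξ)).inner tendsto_const_nhds
    rw [sub_self, inner_zero_left] at h5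
    have h6 : Tendsto (fun w => RCLike.re (⟪R 1 ξ - P m R w {g | G2 g ≤ G1 g} ξ, ξ⟫_ℂ)) l
        (𝓝 (RCLike.re (0 : ℂ))) := (RCLike.continuous_re.tendsto _).comp h5
    rwa [map_zero] at h6
  have h7 : Tendsto (fun w => ‖m {g | G1 g < G2 g} (R w ξ)‖ ^ 2) l (𝓝 0) := by
    simp_rw [h1]
    exact h4
  have h8 := (Real.continuous_sqrt.tendsto 0).comp h7
  rw [Real.sqrt_zero] at h8
  refine h8.congr fun w => ?_
  simp [Real.sqrt_sq (norm_nonneg _)]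

/-- Uniform tails of the second gap along the powers of a wall element. -/
theorem tail_base (h : Sys m R Bd ms A G1 G2) {wN : ℕ → D} (hA : ∀ N, wN N ∈ A)
    (hf : Full m R G1 G2 (map wN atTop))
    (hfin : ∀ ξ, ∀ ε : ℝ, 0 < ε → ∃ F : Finset Γ, ‖m ((F : Set Γ))ᶜ ξ‖ ≤ ε) (ξ : K) {ε : ℝ}
    (hε : 0 < ε) : ∃ r, ∀ N, ‖m {g | r < G2 g} (R (wN N) ξ)‖ ≤ ε := by
  classical
  obtain ⟨r1, hr1⟩ := h.nrv' ξ (ε := ε / 2) (by positivity)
  have h1 : Tendsto (fun N => ‖m {g | G1 g < G2 g} (R (wN N) ξ)‖) atTop (𝓝 0) :=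
    full_compl h.prj h.rep hf ξ
  obtain ⟨N0, hN0⟩ := eventually_atTop.mp (h1.eventually_le_const (u := ε / 2) (by positivity))
  choose F hF using fun N => hfin (R (wN N) ξ) ε hε
  obtain ⟨U, hU⟩ : ∃ U : Finset Γ, U = (Finset.range N0).biUnion F := ⟨_, rfl⟩
  obtain ⟨r2, hr2⟩ := (U.finite_toSet.image G2).bddAbove
  refine ⟨max r1 r2, fun N => ?_⟩
  rcases lt_or_ge N N0 with hN | hN
  · refine (h.prj.mono ?_ _).trans (hF N)
    intro g hg hgF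
    have h2 : G2 g ≤ r2 := by
      refine hr2 ⟨g, ?_, rfl⟩
      rw [hU]
      exact Finset.mem_coe.mpr (Finset.mem_biUnion.mpr ⟨N, Finset.mem_range.mpr hN, hgF⟩)
    have h3 : max r1 r2 < G2 g := hg
    exact absurd (h2.trans (le_max_right r1 r2)) (not_le.mpr h3)
  · have hsub : {g | max r1 r2 < G2 g} ⊆ {g | G1 g < G2 g} ∪ BB G1 G2 r1 := by
      intro g hg
      have h3 : max r1 r2 < G2 g := hg
      have h4 := (le_max_left r1 r2).trans_lt h3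
      by_cases h5 : G1 g < G2 g
      · exact Or.inl h5
      · exact Or.inr ⟨h4.trans_le (not_lt.mp h5), h4⟩
    have h6 := h.prj.mono hsub (R (wN N) ξ)
    have h7 := h.prj.norm_union_le {g | G1 g < G2 g} (BB G1 G2 r1) (R (wN N) ξ)
    have h8 := hr1 (wN N) (hA N)
    have h9 := hN0 N hN
    linarith

/-- Locality of one operator: it is almost a finite sum of operators which shift the coordinate
on the right. -/
def LocAt (m : Set Γ → (K →L[ℂ] K)) (T : K →L[ℂ] K) (Bf : Set K) : Prop :=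
  ∀ ε : ℝ, 0 < ε → ∃ (S : Finset Γ) (X : Γ → (K →L[ℂ] K)),
    (∀ u ∈ S, ∀ B : Set Γ, m B * X u = X u * m {g | g * u ∈ B}) ∧
    ∀ ζ ∈ Bf, ‖T ζ - ∑ u ∈ S, X u ζ‖ ≤ ε

/-- Uniform tails are preserved by local operators. -/
theorem tail_shift (hm : Prj m) {Bf : Set K} {T : K →L[ℂ] K} (hloc : LocAt m T Bf) {G : Γ → ℝ}
    (hG : ∀ u, ∃ C, ∀ g, |G (g * u) - G g| ≤ C) {ι : Type*} (ζ : ι → K) (hζ : ∀ i, ζ i ∈ Bf)
    (ht : ∀ ε : ℝ, 0 < ε → ∃ r, ∀ i, ‖m {g | r < G g} (ζ i)‖ ≤ ε) {ε : ℝ} (hε : 0 < ε) :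
    ∃ r, ∀ i, ‖m {g | r < G g} (T (ζ i))‖ ≤ ε := by
  obtain ⟨S, X, hX, hap⟩ := hloc (ε / 2) (by positivity)
  choose C hC using hG
  obtain ⟨B, hB⟩ : ∃ B, B = ∑ u ∈ S, ‖X u‖ + 1 := ⟨_, rfl⟩
  have hB0 : 0 < B := by
    rw [hB]
    have : 0 ≤ ∑ u ∈ S, ‖X u‖ := Finset.sum_nonneg fun _ _ => norm_nonneg _
    linarith
  obtain ⟨r0, hr0⟩ := ht (ε / (2 * B)) (by positivity)
  refine ⟨r0 + ∑ u ∈ S, |C u|, fun i => ?_⟩
  have h1 : m {g | r0 + ∑ u ∈ S, |C u| < G g} (T (ζ i)) =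
      m {g | r0 + ∑ u ∈ S, |C u| < G g} (T (ζ i) - ∑ u ∈ S, X u (ζ i)) +
      ∑ u ∈ S, X u (m {g | r0 + ∑ u ∈ S, |C u| < G (g * u)} (ζ i)) := by
    rw [map_sub, map_sum]
    have : ∑ u ∈ S, m {g | r0 + ∑ u ∈ S, |C u| < G g} (X u (ζ i)) =
        ∑ u ∈ S, X u (m {g | r0 + ∑ u ∈ S, |C u| < G (g * u)} (ζ i)) := by
      refine Finset.sum_congr rfl fun u hu => ?_
      have h2 := congrArg (fun Z : K →L[ℂ] K => Z (ζ i))
        (hX u hu {g | r0 + ∑ u ∈ S, |C u| < G g})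
      exact h2
    rw [this, sub_add_cancel]
  have h2 : ‖m {g | r0 + ∑ u ∈ S, |C u| < G g} (T (ζ i) - ∑ u ∈ S, X u (ζ i))‖ ≤ ε / 2 :=
    (hm.norm_le _ _).trans (hap _ (hζ i))
  have h3 : ‖∑ u ∈ S, X u (m {g | r0 + ∑ u ∈ S, |C u| < G (g * u)} (ζ i))‖ ≤ ε / 2 := by
    have h4 : ∀ u ∈ S, ‖X u (m {g | r0 + ∑ u ∈ S, |C u| < G (g * u)} (ζ i))‖ ≤
        ‖X u‖ * (ε / (2 * B)) := by
      intro u hu
      refine ((X u).le_opNorm _).trans (mul_le_mul_of_nonneg_left ?_ (norm_nonneg _))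
      refine (hm.mono ?_ (ζ i)).trans (hr0 i)
      intro g hg
      have h5 : r0 + ∑ u ∈ S, |C u| < G (g * u) := hg
      have h6 := (abs_le.mp (hC u g)).2
      have h7 : |C u| ≤ ∑ u ∈ S, |C u| :=
        Finset.single_le_sum (f := fun u => |C u|) (fun _ _ => abs_nonneg _) hu
      have h8 := le_abs_self (C u)
      change r0 < G g
      linarith
    refine (norm_sum_le _ _).trans ((Finset.sum_le_sum h4).trans ?_)
    rw [← Finset.sum_mul]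
    have h5 : ∑ u ∈ S, ‖X u‖ ≤ B := by rw [hB]; linarith
    calc (∑ u ∈ S, ‖X u‖) * (ε / (2 * B)) ≤ B * (ε / (2 * B)) :=
          mul_le_mul_of_nonneg_right h5 (by positivity)
      _ = ε / 2 := by field_simp
  rw [h1]
  exact (norm_add_le _ _).trans (by linarith)

end tail

section nws

variable {Γ K : Type} [Group Γ] [NormedAddCommGroup K] [InnerProductSpace ℂ K]
  [CompleteSpace K] {m : Set Γ → (K →L[ℂ] K)} {Bd Bf : Set K}

theorem gap_right (q : Γ →* G3 ℝ) (j : ℕ) (u : Γ) :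
    ∃ C, ∀ g, |gap j (q (g * u)).1 - gap j (q g).1| ≤ C := by
  obtain ⟨C, hC⟩ := H337.gap_stab q 1 u
  refine ⟨C, fun g => ?_⟩
  have := hC g j
  rwa [one_mul] at this

/-- **[D0-NWS]** -/
theorem nws_of {w : ℝˣ} {π : G3 ℝ →* (K →L[ℂ] K)} {Ω : K} {q : Γ →* G3 ℝ}
    {ms : G3 ℝ → Set Γ → ℝ} {A : Subgroup (G3 ℝ)}
    (h : Sys m (fun g => π g) Bd ms A (fun γ => gap 0 (q γ).1) (fun γ => gap 1 (q γ).1))
    (hA : (bw w)⁻¹ ∈ A)
    (hf : Full m (fun g => π g) (fun γ => gap 0 (q γ).1) (fun γ => gap 1 (q γ).1)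
      (map (fun N : ℕ => (bw w ^ N)⁻¹) atTop))
    (hfin : ∀ ξ, ∀ ε : ℝ, 0 < ε → ∃ F : Finset Γ, ‖m ((F : Set Γ))ᶜ ξ‖ ≤ ε)
    (hloc : ∀ v, LocAt m (π v) Bf) (hmap : ∀ v, ∀ ζ ∈ Bf, π v ζ ∈ Bf) (hΩ : Ω ∈ Bf) :
    NWS w π Ω m q := by
  intro g ε hε
  have h1 : ∀ ε : ℝ, 0 < ε → ∃ r, ∀ N : ℕ,
      ‖m {γ | r < gap 1 (q γ).1} (π (bw w ^ N)⁻¹ (π g⁻¹ Ω))‖ ≤ ε := fun ε hε =>
    tail_base h (fun N => by rw [← inv_pow]; exact A.pow_mem hA N) hf hfin (π g⁻¹ Ω) hε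
  obtain ⟨r, hr⟩ := tail_shift h.prj (hloc g) (gap_right q 1)
    (fun N : ℕ => π (bw w ^ N)⁻¹ (π g⁻¹ Ω)) (fun N => hmap _ _ (hmap _ _ hΩ)) h1 hε
  refine ⟨9 * Real.exp (r / 2), fun N => ?_⟩
  have e : π (g * bw w ^ N * g⁻¹)⁻¹ Ω = π g (π (bw w ^ N)⁻¹ (π g⁻¹ Ω)) := by
    have : (g * bw w ^ N * g⁻¹)⁻¹ = g * ((bw w ^ N)⁻¹ * g⁻¹) := by group
    rw [this, map_mul, map_mul]
    rfl
  rw [e]
  refine (h.prj.mono ?_ _).trans (hr N)
  intro γ hγ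
  have h2 : ¬ NW (9 * Real.exp (r / 2)) (q γ) := hγ
  change r < gap 1 (q γ).1
  by_contra h3
  exact h2 (H337.nw_of_gap (not_lt.mp h3))

end nws

end Vale.Agent.P092.H107
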