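import Vale.Agent.P092.SD.Defs
import Vale.Agent.P092.H107.Dual

/-!
P092, TEAM D, (T3) of #5548 (helper107): the wall element `bw w` and the inverse transpose.
-/

set_option linter.all false

namespace Vale.Agent.P092.H107

open Filter Topology Matrix
open Vale.Agent.P092.SD (G3 PP tau bw nm)

section field

variable {k : Type} [Field k]

/-- The inverse transpose of the wall element. -/
theorem tau_bw (w : kˣ) : tau k (bw w) = (bw w)⁻¹ := by
  rw [eq_inv_iff_mul_eq_one]
  -- `(g⁻¹)ᵀ g = 1` for the diagonal `g`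
  apply Subtype.ext
  have h1 : (bw w).1.transpose = (bw w).1 := by
    unfold bw
    exact diagonal_transpose _
  have h2 : (bw w)⁻¹.1 * (bw w).1 = 1 := congrArg Subtype.val (inv_mul_cancel (bw w))
  have h3 : (bw w).1 * (bw w)⁻¹.1 = 1 := congrArg Subtype.val (mul_inv_cancel (bw w))
  change (bw w)⁻¹.1.transpose * (bw w).1 = 1
  calc (bw w)⁻¹.1.transpose * (bw w).1 = (bw w)⁻¹.1.transpose * (bw w).1.transpose := by rw [h1]
    _ = ((bw w).1 * (bw w)⁻¹.1).transpose := (transpose_mul _ _).symm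
    _ = 1 := by rw [h3, transpose_one]

theorem tau_bw_pow (w : kˣ) (N : ℕ) : tau k (bw w ^ N) = (bw w ^ N)⁻¹ := by
  rw [map_pow, tau_bw, inv_pow]

theorem tau_bw_pow_inv (w : kˣ) (N : ℕ) : tau k ((bw w ^ N)⁻¹) = bw w ^ N := by
  rw [map_inv, tau_bw_pow, inv_inv]

theorem tau_bw_inv_pow (w : kˣ) (N : ℕ) : tau k ((bw w)⁻¹ ^ N) = bw w ^ N := by
  rw [inv_pow, tau_bw_pow_inv]

/-- The cyclic group of the wall element is stable. -/
theorem comap_zpowers (w : kˣ) :
    (Subgroup.zpowers (bw w)).comap (tau k) = Subgroup.zpowers (bw w) := by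
  have tt : ∀ h : G3 k, tau k (tau k h) = h := by
    intro h
    apply Subtype.ext
    have h1 : (tau k h)⁻¹ = tau k h⁻¹ := (map_inv (tau k) h).symm
    change ((tau k h)⁻¹).1.transpose = h.1
    rw [h1]
    change ((h⁻¹)⁻¹).1.transpose.transpose = h.1
    rw [inv_inv, transpose_transpose]
  ext g
  rw [Subgroup.mem_comap, Subgroup.mem_zpowers_iff, Subgroup.mem_zpowers_iff]
  constructor
  · rintro ⟨n, hn⟩
    refine ⟨-n, ?_⟩
    have h1 := congrArg (tau k) hn
    rw [map_zpow, tau_bw, tt, _root_.inv_zpow, ← _root_.zpow_neg] at h1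
    exact h1
  · rintro ⟨n, rfl⟩
    refine ⟨-n, ?_⟩
    rw [map_zpow, tau_bw, _root_.inv_zpow, ← _root_.zpow_neg]

theorem bw_pow_mem (w : kˣ) (N : ℕ) : bw w ^ N ∈ Subgroup.zpowers (bw w) :=
  Subgroup.pow_mem _ (Subgroup.mem_zpowers _) N

theorem bw_pow_inv_mem (w : kˣ) (N : ℕ) : (bw w ^ N)⁻¹ ∈ Subgroup.zpowers (bw w) :=
  Subgroup.inv_mem _ (bw_pow_mem w N)

/-- The filters at infinity of the two rays are exchanged. -/
theorem tau_tendsto_inv (w : kˣ) : Tendsto (tau k) (map (fun N : ℕ => bw w ^ N) atTop)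
    (map (fun N : ℕ => (bw w ^ N)⁻¹) atTop) := by
  rw [tendsto_map'_iff]
  have : (tau k : G3 k → G3 k) ∘ (fun N : ℕ => bw w ^ N) = fun N : ℕ => (bw w ^ N)⁻¹ := by
    funext N
    exact tau_bw_pow w N
  rw [this]
  exact tendsto_map

theorem tau_tendsto (w : kˣ) : Tendsto (tau k) (map (fun N : ℕ => (bw w ^ N)⁻¹) atTop)
    (map (fun N : ℕ => bw w ^ N) atTop) := by
  rw [tendsto_map'_iff]
  have : (tau k : G3 k → G3 k) ∘ (fun N : ℕ => (bw w ^ N)⁻¹) = fun N : ℕ => bw w ^ N := by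
    funext N
    exact tau_bw_pow_inv w N
  rw [this]
  exact tendsto_map

end field

section top

variable {k : Type} [NontriviallyNormedField k]

theorem continuous_tau : Continuous (tau k) := by
  refine Continuous.subtype_mk ?_ _
  have h1 : Continuous fun g : G3 k => (g⁻¹).1 :=
    continuous_subtype_val.comp continuous_inv
  exact h1.matrix_transpose

/-- The norm of the powers of the wall element. -/
theorem bw_coe (w : kˣ) (N : ℕ) : (bw w ^ N).1 0 0 = (((w⁻¹ : kˣ) : k) ^ 2) ^ N := by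
  have h1 : ∀ N : ℕ, (bw w ^ N).1 =
      Matrix.diagonal (fun i => (![((w⁻¹ : kˣ) : k) ^ 2, (w : k), (w : k)] i) ^ N) := by
    intro N
    induction N with
    | zero =>
      rw [pow_zero]
      change (1 : Matrix (Fin 3) (Fin 3) k) = _
      rw [← diagonal_one]
      congr 1
      funext i
      simp
    | succ N ih =>
      rw [pow_succ]
      change (bw w ^ N).1 * (bw w).1 = _
      rw [ih]
      unfold bw
      rw [diagonal_mul_diagonal]
      congr 1
      funext i
      exact (pow_succ _ N).symm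
  rw [h1]
  simp

theorem bw_inv_coe (w : kˣ) (N : ℕ) : ((bw w ^ N)⁻¹).1 1 1 = (((w⁻¹ : kˣ) : k)) ^ N := by
  have h1 : ∀ N : ℕ, (bw w ^ N).1 =
      Matrix.diagonal (fun i => (![((w⁻¹ : kˣ) : k) ^ 2, (w : k), (w : k)] i) ^ N) := by
    intro N
    induction N with
    | zero =>
      rw [pow_zero]
      change (1 : Matrix (Fin 3) (Fin 3) k) = _
      rw [← diagonal_one]
      congr 1
      funext i
      simp
    | succ N ih =>
      rw [pow_succ]
      change (bw w ^ N).1 * (bw w).1 = _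
      rw [ih]
      unfold bw
      rw [diagonal_mul_diagonal]
      congr 1
      funext i
      exact (pow_succ _ N).symm
  have h2 : (bw w ^ N).1 * ((bw w ^ N)⁻¹).1 = 1 := congrArg Subtype.val (mul_inv_cancel (bw w ^ N))
  rw [h1] at h2
  have h3 := congrFun (congrFun h2 1) 1
  rw [diagonal_mul, one_apply_eq] at h3
  have h4 : (w : k) ^ N * ((bw w ^ N)⁻¹).1 1 1 = 1 := h3
  have hw : (w : k) ^ N ≠ 0 := pow_ne_zero _ w.ne_zero
  have h5 : (w : k) ^ N * ((w⁻¹ : kˣ) : k) ^ N = 1 := by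
    rw [← mul_pow, ← Units.val_mul]
    simp
  exact mul_left_cancel₀ hw (h4.trans h5.symm)

/-- The entries are unbounded along both rays: the powers leave every compact set. -/
theorem tendsto_cocompact_of_entry {f : ℕ → G3 k} {i j : Fin 3}
    (h : Tendsto (fun N => ‖(f N).1 i j‖) atTop atTop) : Tendsto f atTop (cocompact (G3 k)) := by
  rw [hasBasis_cocompact.tendsto_right_iff]
  intro C hC
  have hc : Continuous fun g : G3 k => ‖g.1 i j‖ := by
    have h1 : Continuous fun g : G3 k => g.1 i j :=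
      (continuous_apply j).comp ((continuous_apply i).comp continuous_subtype_val)
    exact h1.norm
  obtain ⟨B, hB⟩ := (hC.image hc).bddAbove
  filter_upwards [h.eventually_gt_atTop B] with N hN hNC
  exact absurd (hB ⟨f N, hNC, rfl⟩) (not_le.mpr hN)

theorem bw_cocompact {w : kˣ} (hw : ‖(w : k)‖ < 1) :
    Tendsto (fun N : ℕ => bw w ^ N) atTop (cocompact (G3 k)) := by
  refine tendsto_cocompact_of_entry (i := 0) (j := 0) ?_
  have h0 : 0 < ‖(w : k)‖ := norm_pos_iff.mpr w.ne_zero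
  have h1 : 1 < ‖(w : k)‖⁻¹ := (one_lt_inv₀ h0).mpr hw
  have h2 : (1 : ℝ) < (‖(w : k)‖⁻¹) ^ 2 := one_lt_pow₀ h1 two_ne_zero
  refine (tendsto_pow_atTop_atTop_of_one_lt h2).congr fun N => ?_
  rw [bw_coe, norm_pow, norm_pow, Units.val_inv_eq_inv_val, norm_inv]

theorem bw_inv_cocompact {w : kˣ} (hw : ‖(w : k)‖ < 1) :
    Tendsto (fun N : ℕ => (bw w ^ N)⁻¹) atTop (cocompact (G3 k)) := by
  refine tendsto_cocompact_of_entry (i := 1) (j := 1) ?_
  have h0 : 0 < ‖(w : k)‖ := norm_pos_iff.mpr w.ne_zero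
  have h1 : 1 < ‖(w : k)‖⁻¹ := (one_lt_inv₀ h0).mpr hw
  refine (tendsto_pow_atTop_atTop_of_one_lt h1).congr fun N => ?_
  rw [bw_inv_coe, norm_pow, Units.val_inv_eq_inv_val, norm_inv]

end top

end Vale.Agent.P092.H107
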