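import Vale.Agent.P092.H107.Size

/-!
P092, TEAM D (helper107): the fields `inj`, `disc` of `SD.LegS` for the inclusion of a discrete
subgroup of `SL_3(ℝ)` and for its composition with `tau`.
-/

namespace Vale.Agent.P092.H107

open Matrix Vale.Agent.P092.H944 Vale.Agent.P092.H337
open Vale.Agent.P092.SD (G3 PP tau nm NW)

section

variable {Γ : Type} [Group Γ] {q : Γ →* G3 ℝ}

/-- Finite balls, from the maximum norm to the Hilbert-Schmidt norm. -/
theorem fin_of_disc (h : ∀ C : ℝ, {γ : Γ | nm (q γ) ≤ C}.Finite) (R : ℝ) :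
    {γ : Γ | hs (q γ).1 ≤ R}.Finite := by
  refine (h (Real.sqrt R)).subset fun γ hγ => ?_
  have h1 : nm (q γ) ^ 2 ≤ R := (nm_sq_le_hs (q γ)).trans hγ
  exact Real.le_sqrt_of_sq_le h1

/-- Finite balls, from the Hilbert-Schmidt norm to the maximum norm. -/
theorem disc_of_fin (h : ∀ R : ℝ, {γ : Γ | hs (q γ).1 ≤ R}.Finite) (C : ℝ) :
    {γ : Γ | nm (q γ) ≤ C}.Finite := by
  refine (h (9 * C ^ 2)).subset fun γ hγ => ?_
  have h1 : nm (q γ) ≤ C := hγ
  have h2 := hs_le_nm_sq (q γ)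
  have h3 := H337.nm_nonneg (q γ)
  have h4 : nm (q γ) ^ 2 ≤ C ^ 2 := pow_le_pow_left₀ h3 h1 2
  change hs (q γ).1 ≤ 9 * C ^ 2
  linarith

/-- Finite balls for the inverse transpose. -/
theorem disc_tau (h : ∀ C : ℝ, {γ : Γ | nm (q γ) ≤ C}.Finite) (C : ℝ) :
    {γ : Γ | nm (((tau ℝ).comp q) γ) ≤ C}.Finite :=
  disc_of_fin (fin_tau (fin_of_disc h)) C

theorem inj_tau (h : Function.Injective q) : Function.Injective ((tau ℝ).comp q) :=
  fun _ _ hab => h (tau_inj hab)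

end

variable (Γ : Subgroup (G3 ℝ))

theorem disc_sub [DiscreteTopology Γ] (C : ℝ) : {γ : Γ | nm (Γ.subtype γ) ≤ C}.Finite :=
  disc_of_fin (q := Γ.subtype) (hs_finite Γ) C

theorem fin_sub [DiscreteTopology Γ] (R : ℝ) : {γ : Γ | hs (Γ.subtype γ).1 ≤ R}.Finite :=
  hs_finite Γ R

theorem inj_sub : Function.Injective Γ.subtype := Subtype.val_injective

theorem disc_sub_tau [DiscreteTopology Γ] (C : ℝ) :
    {γ : Γ | nm (((tau ℝ).comp Γ.subtype) γ) ≤ C}.Finite := disc_tau (disc_sub Γ) C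

theorem inj_sub_tau : Function.Injective ((tau ℝ).comp Γ.subtype) := inj_tau (inj_sub Γ)

end Vale.Agent.P092.H107
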