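import Vale.Agent.P092.H103.PicI
import Vale.Agent.P092.H34.PicE
import Vale.Agent.P092.H725.SizeP
import Vale.Agent.P092.SD.Blocks
import Vale.Agent.P092.H107.Disc
import Vale.Agent.P092.H107.Nws

/-!
P092, TEAM D, row (8) (helper107): all fields of `SD.LegS` for the concrete picture of `H34/PicD`
which do not involve the calculi, first leg; `NWS` from the output of the engine.
-/

set_option linter.all false

open scoped InnerProductSpace ENNReal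
open Set Filter Topology MeasureTheory ContinuousLinearMap

namespace Vale.Agent.P092.H107

open Vale.Agent.P092.H160 Vale.Agent.P092.H103 Vale.Agent.P092.SR
open Vale.Agent.P092.SD (G3 PP CP tau bw nm NWS EFam LegS)
open Vale.Agent.P092.RC (Cm KK pic lam₁ lam₂ XX Om)
open Vale.Agent.P092.H944 (gap)

section leg

variable [LocallyCompactSpace (G3 ℝ)] [SecondCountableTopology (G3 ℝ)]
  [MeasurableSpace (G3 ℝ)] [BorelSpace (G3 ℝ)] {Γ : Subgroup (G3 ℝ)} [DiscreteTopology Γ]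
  [Countable Γ] [MeasurableSpace (G3 ℝ ⧸ Γ)] [BorelSpace (G3 ℝ ⧸ Γ)]
  {ν : Measure (G3 ℝ ⧸ Γ)} [IsProbabilityMeasure ν]
  (hν : ∀ g : G3 ℝ, ν.map (fun x => g • x) = ν)
  {Λ : Type} [Group Λ] [Countable Λ] {α : Γ →* (Ell2 Λ →L[ℂ] Ell2 Λ)} (hα : Frame α)
  (hΛ : ∀ s : Λ, s ≠ 1 → Set.Infinite {y : Λ | ∃ h, y = h * s * h⁻¹})

include hΛ in
/-- **The non-calculus fields of `LegS`**, for any embedding `q` with finite balls. -/
theorem legS_of {w : ℝˣ} (hw : ‖(w : ℝ)‖ < 1) {q : Γ →* G3 ℝ} (inj : Function.Injective q)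
    (disc : ∀ C : ℝ, {γ : Γ | nm (q γ) ≤ C}.Finite)
    (nws : NWS w (pic hν hα) (Om ν Λ) (mS₁ ν hα) q)
    {E F : PP ℝ → (CP ℝ →⋆ₐ[ℂ] (KK ν Λ →L[ℂ] KK ν Λ))}
    (e : EFam w (pic hν hα) (lam₁ ν α) (XX ν Λ ∪ Set.range (lam₂ ν α)) (mS₁ ν hα) q E)
    (f : EFam w ((pic hν hα).comp (tau ℝ)) (lam₁ ν α) (XX ν Λ ∪ Set.range (lam₂ ν α))
      (mS₁ ν hα) ((tau ℝ).comp q) F) :
    LegS volume w (pic hν hα) (lam₁ ν α) (XX ν Λ ∪ Set.range (lam₂ ν α)) (Om ν Λ) (mS₁ ν hα)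
      q E F where
  hw := hw
  pic := by
    haveI : NoncompactSpace (G3 ℝ) := H34.PicC.sl_noncompact (show (0 : Fin 3) ≠ 1 by decide)
    exact (H34.PicC.pic2 hν hα hΛ).leg₁
  ms := ms₁ hα
  inj := inj
  disc := disc
  uc := uc₁ hν hα
  orb := orb₁ hν hα w
  size := H725.size₁ hν hα hΛ (bF₁ hα) (bF₁_ap hα) (ms₁ hα) w q
  nws := nws
  e := e
  f := f

include hΛ in
/-- The same for `q` = the inclusion. -/
theorem legS_incl {w : ℝˣ} (hw : ‖(w : ℝ)‖ < 1)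
    (nws : NWS w (pic hν hα) (Om ν Λ) (mS₁ ν hα) Γ.subtype)
    {E F : PP ℝ → (CP ℝ →⋆ₐ[ℂ] (KK ν Λ →L[ℂ] KK ν Λ))}
    (e : EFam w (pic hν hα) (lam₁ ν α) (XX ν Λ ∪ Set.range (lam₂ ν α)) (mS₁ ν hα) Γ.subtype E)
    (f : EFam w ((pic hν hα).comp (tau ℝ)) (lam₁ ν α) (XX ν Λ ∪ Set.range (lam₂ ν α))
      (mS₁ ν hα) ((tau ℝ).comp Γ.subtype) F) :
    LegS volume w (pic hν hα) (lam₁ ν α) (XX ν Λ ∪ Set.range (lam₂ ν α)) (Om ν Λ) (mS₁ ν hα)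
      Γ.subtype E F :=
  legS_of hν hα hΛ hw (inj_sub Γ) (disc_sub Γ) nws e f

include hΛ in
/-- The same for `q` = the inverse transpose. -/
theorem legS_tau {w : ℝˣ} (hw : ‖(w : ℝ)‖ < 1)
    (nws : NWS w (pic hν hα) (Om ν Λ) (mS₁ ν hα) ((tau ℝ).comp Γ.subtype))
    {E F : PP ℝ → (CP ℝ →⋆ₐ[ℂ] (KK ν Λ →L[ℂ] KK ν Λ))}
    (e : EFam w (pic hν hα) (lam₁ ν α) (XX ν Λ ∪ Set.range (lam₂ ν α)) (mS₁ ν hα)
      ((tau ℝ).comp Γ.subtype) E)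
    (f : EFam w ((pic hν hα).comp (tau ℝ)) (lam₁ ν α) (XX ν Λ ∪ Set.range (lam₂ ν α))
      (mS₁ ν hα) ((tau ℝ).comp ((tau ℝ).comp Γ.subtype)) F) :
    LegS volume w (pic hν hα) (lam₁ ν α) (XX ν Λ ∪ Set.range (lam₂ ν α)) (Om ν Λ) (mS₁ ν hα)
      ((tau ℝ).comp Γ.subtype) E F :=
  legS_of hν hα hΛ hw (inj_sub_tau Γ) (disc_sub_tau Γ) nws e f

end leg

end Vale.Agent.P092.H107
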