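import Vale.Agent.P092.H107.Dual
import Vale.Agent.P092.H337.DomG

/-!
P092, TEAM D (helper107): sizes `log (nm h)` against the gaps, for `h` and for its inverse
transpose; near-wall elements of the dual.
-/

namespace Vale.Agent.P092.H107

open Matrix Vale.Agent.P092.H944 Vale.Agent.P092.H337
open Vale.Agent.P092.SD (G3 PP tau nm NW)

/-- Sizes and gaps. -/
theorem size (h : G3 ℝ) :
    |6 * Real.log (nm h) - (2 * gap 0 h.1 + gap 1 h.1)| ≤ 3 * Real.log 9 := by
  obtain ⟨x, y, z, hz, hzy, hyx, hp, eA, -, e0, e1, -⟩ := three (det_abs h)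
  have hy : 0 < y := hz.trans_le hzy
  have hx : 0 < x := hy.trans_le hyx
  have h1 := nm_sq_le_hs h
  have h2 := hs_le_nm_sq h
  have h3 := nm_pos h
  rw [eA] at h1 h2
  have e2 : 2 * gap 0 h.1 + gap 1 h.1 = 3 * Real.log x := by
    have e3 : gap 0 h.1 = Real.log x - Real.log y := by
      rw [← Real.log_div hx.ne' hy.ne', ← e0, Real.log_exp]
    have e4 : gap 1 h.1 = Real.log y - Real.log z := by
      rw [← Real.log_div hy.ne' hz.ne', ← e1, Real.log_exp]
    have e5 : Real.log x + Real.log y + Real.log z = 0 := by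
      rw [← Real.log_mul hx.ne' hy.ne', ← Real.log_mul (mul_pos hx hy).ne' hz.ne', hp,
        Real.log_one]
    rw [e3, e4]
    linarith
  have l1 : 2 * Real.log (nm h) ≤ Real.log 3 + Real.log x := by
    rw [← Real.log_mul (by norm_num) hx.ne']
    have : Real.log (nm h ^ 2) ≤ Real.log (3 * x) :=
      Real.log_le_log (by positivity) (by linarith)
    rwa [Real.log_pow] at this
  have l2 : Real.log x ≤ Real.log 9 + 2 * Real.log (nm h) := by
    have : Real.log x ≤ Real.log (9 * nm h ^ 2) := Real.log_le_log hx (by linarith)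
    rwa [Real.log_mul (by norm_num) (by positivity), Real.log_pow] at this
  have l3 : Real.log 3 ≤ Real.log 9 := Real.log_le_log (by norm_num) (by norm_num)
  rw [e2, abs_le]
  constructor <;> linarith

/-- Sizes on near-wall elements. -/
theorem size_nw {R : ℝ} {h : G3 ℝ} (hR : NW R h) :
    |6 * Real.log (nm h) - 2 * gap 0 h.1| ≤ 3 * Real.log 9 + Real.log (243 * R ^ 2) := by
  have h1 := abs_le.mp (size h)
  have h2 := gap_of_nw hR
  have h3 := gap_nonneg (det_ne h) 1
  rw [abs_le]
  constructor <;> linarith [h1.1, h1.2]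

/-- The norm of the inverse transpose. -/
theorem nm_tau (h : G3 ℝ) : nm (tau ℝ h) = nm h⁻¹ := by
  unfold nm
  apply le_antisymm
  · refine (pi_norm_le_iff_of_nonneg (norm_nonneg _)).mpr fun i => ?_
    refine (pi_norm_le_iff_of_nonneg (norm_nonneg _)).mpr fun j => ?_
    have h1 := abs_le_nm h⁻¹ j i
    exact h1
  · refine (pi_norm_le_iff_of_nonneg (norm_nonneg _)).mpr fun i => ?_
    refine (pi_norm_le_iff_of_nonneg (norm_nonneg _)).mpr fun j => ?_
    have h1 := abs_le_nm (tau ℝ h) j i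
    exact h1

theorem size_tau (h : G3 ℝ) :
    |6 * Real.log (nm (tau ℝ h)) - (2 * gap 1 h.1 + gap 0 h.1)| ≤ 3 * Real.log 9 := by
  have := size (tau ℝ h)
  rwa [gap0_tau, gap1_tau] at this

/-- The near-wall condition of the dual (type 2 for `h`): `σ₁ ≤ R σ₂`. -/
theorem nw_tau (R : ℝ) (h : G3 ℝ) : NW R (tau ℝ h) ↔ nm h ^ 2 ≤ R * nm h⁻¹ := by
  unfold NW
  have e1 : nm (tau ℝ h)⁻¹ = nm h := by
    rw [← map_inv, nm_tau, inv_inv]
  rw [e1, nm_tau]

/-- The size of an element is bounded by a constant plus both gaps. -/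
theorem log_nm_le (h : G3 ℝ) : Real.log (nm h) ≤ gap 0 h.1 + gap 1 h.1 + Real.log 9 := by
  have h1 := abs_le.mp (size h)
  have h2 := gap_nonneg (det_ne h) 0
  have h3 := gap_nonneg (det_ne h) 1
  have h4 : 0 ≤ Real.log 9 := Real.log_nonneg (by norm_num)
  linarith [h1.2]

end Vale.Agent.P092.H107
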